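import Vale.Agent.P281.H969.TG.Spec
import Vale.Agent.P281.H383.Gen.Ext
import Vale.Agent.P281.H76.Pull

/-!
# P281, project T-G (helper389), block G6: local computations
-/

open Set Filter Metric MeasureTheory Vale.Agent.P281 Vale.Agent.P281.H713 Vale.Agent.P272.K
open Vale.Agent.P281.MF Vale.Agent.P281.ISO Vale.Agent.P281.H713.TZ
open Vale.Agent.P281.H64.TU (Tame KTame TameOK RelFormT HasFormsT)
open Vale.Agent.P281.H969.TG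

open scoped Topology ContDiff Manifold ComplexConjugate ComplexOrder ENNReal NNReal

set_option linter.all false

noncomputable section

namespace Vale.Agent.P281.H389.TG

section jac
variable {E : Type} [NormedAddCommGroup E] [NormedSpace ℂ E] [FiniteDimensional ℂ E]
variable {X₁ X : Type} [TopologicalSpace X₁] [ChartedSpace E X₁] [IsManifold 𝓘(ℂ, E) ω X₁]
  [TopologicalSpace X] [ChartedSpace E X] [IsManifold 𝓘(ℂ, E) ω X]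

/-- the Jacobian of `u` in the charts at `x₀`, `x₁` -/
def ju (E : Type) [NormedAddCommGroup E] [NormedSpace ℂ E] {X₁ X : Type} [TopologicalSpace X₁]
    [ChartedSpace E X₁] [TopologicalSpace X] [ChartedSpace E X] (u : X₁ → X) (x₀ : X) (x₁ w : X₁) :
    ℂ :=
  (fderiv ℂ (chartAt E x₀ ∘ u ∘ (chartAt E x₁).symm) (chartAt E x₁ w)).det

theorem ju_mul {u : X₁ → X} {x₀ : X} {x₁ w : X₁} (hw : w ∈ (chartAt E x₁).source)
    (hx : u w ∈ (chartAt E x₀).source) (hu : HolM E E u w) :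
    ju E u x₀ x₁ w * jac E (chartAt E x₁) w =
      jac E (chartAt E x₀) (u w) * (dM E E u w).det := by
  have hh : HolV E (fun w => (chartAt E x₀ : X → E) (u w)) w :=
    HolV.comp (h := (chartAt E x₀ : X → E)) (HolV.chart hx) hu
  have h1 := dV_eq_chart hw hh
  have h2 := dV_comp (h := (chartAt E x₀ : X → E)) (HolV.chart hx) hu
  have h3 : (dV E (fun w => (chartAt E x₀ : X → E) (u w)) w).det =
      ju E u x₀ x₁ w * jac E (chartAt E x₁) w := by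
    rw [h1, clm_det_comp]
    rfl
  have h4 : (dV E (fun w => (chartAt E x₀ : X → E) (u w)) w).det =
      jac E (chartAt E x₀) (u w) * (dM E E u w).det := by
    rw [h2, clm_det_comp]
    rfl
  rw [← h3, h4]

theorem ju_hol {u : X₁ → X} {x₀ : X} {x₁ w : X₁} (hw : w ∈ (chartAt E x₁).source)
    (hx : u w ∈ (chartAt E x₀).source) (hu : HolM E E u w) : HolV E (ju E u x₀ x₁) w := by
  have hh : HolV E (fun w => (chartAt E x₀ : X → E) (u w)) w :=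
    HolV.comp (h := (chartAt E x₀ : X → E)) (HolV.chart hx) hu
  have h1 : ContDiffAt ℂ ω (fderiv ℂ ((fun w => (chartAt E x₀ : X → E) (u w)) ∘
      (chartAt E x₁).symm)) (chartAt E x₁ w) := (hh.rep hw).fderiv_right (by simp)
  have h2 : ContDiffAt ℂ ω (fun z => (fderiv ℂ ((fun w => (chartAt E x₀ : X → E) (u w)) ∘
      (chartAt E x₁).symm) z).det) (chartAt E x₁ w) := (contDiff_det.contDiffAt).comp _ h1
  exact HolV.comp_contDiff (G := fun z => (fderiv ℂ ((fun w => (chartAt E x₀ : X → E) (u w)) ∘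
      (chartAt E x₁).symm) z).det) h2 (HolV.chart hw)

end jac

section loc
variable {n p d : ℕ} {X₁ Y₁ X Y : Type} [TopologicalSpace X₁] [ChartedSpace (Cm n) X₁]
  [IsManifold 𝓘(ℂ, Cm n) ω X₁] [TopologicalSpace Y₁] [ChartedSpace (Cm p) Y₁]
  [IsManifold 𝓘(ℂ, Cm p) ω Y₁] [TopologicalSpace X] [ChartedSpace (Cm n) X]
  [IsManifold 𝓘(ℂ, Cm n) ω X] [TopologicalSpace Y] [ChartedSpace (Cm p) Y]
  [IsManifold 𝓘(ℂ, Cm p) ω Y]

/-- the local coefficient of the transported form, in the charts at `x₀`, `y₀` -/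
def RR (n p : ℕ) {X₁ Y₁ X Y : Type} [TopologicalSpace X₁] [ChartedSpace (Cm n) X₁]
    [TopologicalSpace Y₁] [ChartedSpace (Cm p) Y₁] [TopologicalSpace X] [ChartedSpace (Cm n) X]
    [TopologicalSpace Y] [ChartedSpace (Cm p) Y] (u : X₁ → X) (v : Y₁ → Y) (f₁ : X₁ → Y₁)
    (f : X → Y) (N : ℕ) (Θ₁ : X₁ → ℂ) (x₀ : X) (y₀ : Y) (w : X₁) : ℂ :=
  (jac (Cm p) (chartAt (Cm p) y₀) (f (u w)) / jac (Cm n) (chartAt (Cm n) x₀) (u w)) ^ N *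
    trn (Cm n) (Cm p) u v f₁ N Θ₁ w

variable {u : X₁ → X} {v : Y₁ → Y} {f₁ : X₁ → Y₁} {f : X → Y} {N : ℕ} {Θ₁ : X₁ → ℂ}
  {S₁ : Set Y₁} {e₀ : Cm n ≃L[ℂ] (Cm p × Cm d)} {𝒜₁ : Set (Set X₁)} {κ₁ : Set X₁ → ℕ}
  {T' : Tame (Cm d) X₁} {Δ₁ : Set X₁ → ℝ}

/-- the local expression -/
theorem loc (hu : ∀ w, HolM (Cm n) (Cm n) u w) (hv : ∀ w, HolM (Cm p) (Cm p) v w)
    (hf₁ : ∀ w, HolM (Cm n) (Cm p) f₁ w) (hcomm : ∀ w, f (u w) = v (f₁ w))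
    (hR : RelFormT T' f₁ S₁ e₀ N 𝒜₁ κ₁ Θ₁) (h𝒜 : ∀ D ∈ 𝒜₁, Δ₁ D ≠ 0)
    (hκ : ∀ D, κ₁ D ≠ 0 → Δ₁ D ≠ 0) {x₁ : X₁} {x₀ : X} {y₀ : Y} (hS : f₁ x₁ ∉ S₁)
    (hx : u x₁ ∈ (chartAt (Cm n) x₀).source) (hy : f (u x₁) ∈ (chartAt (Cm p) y₀).source)
    (T₁ : Finset (Set X₁)) (hT₁ : ∀ D, D ∈ T₁ ↔ Δ₁ D ≠ 0) (e₁ : Set X₁ → X₁ → ℂ)
    (he₁ : ∀ D ∈ T₁, IsLocalEq (Cm n) D (e₁ D) x₁) :
    ∃ H₁ : X₁ → ℂ, HolV (Cm n) H₁ x₁ ∧ ∀ᶠ w in 𝓝 x₁, (∀ D, Δ₁ D ≠ 0 → w ∉ D) →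
      (dM (Cm n) (Cm n) u w).det ≠ 0 → ju (Cm n) u x₀ x₁ w ≠ 0 ∧ (∀ D ∈ T₁, e₁ D w ≠ 0) ∧
      RR n p u v f₁ f N Θ₁ x₀ y₀ w *
        (ju (Cm n) u x₀ x₁ w ^ N * ∏ D ∈ T₁, e₁ D w ^ κ₁ D) =
        ju (Cm p) v y₀ (f₁ x₁) (f₁ w) ^ N * H₁ w := by
  obtain ⟨H₁, hH₁, hev⟩ := hR.hol x₁ x₁ (f₁ x₁) hS (mem_chart_source _ _) (mem_chart_source _ _)
    T₁ e₁ (fun D hD => (hT₁ D).2 (hκ D hD)) he₁
  refine ⟨H₁, hH₁, ?_⟩
  have e1 : ∀ᶠ w in 𝓝 x₁, w ∈ (chartAt (Cm n) x₁).source :=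
    (chartAt (Cm n) x₁).open_source.mem_nhds (mem_chart_source _ _)
  have e2 : ∀ᶠ w in 𝓝 x₁, u w ∈ (chartAt (Cm n) x₀).source :=
    (hu x₁).continuousAt.eventually ((chartAt (Cm n) x₀).open_source.mem_nhds hx)
  have e3 : ∀ᶠ w in 𝓝 x₁, f₁ w ∈ (chartAt (Cm p) (f₁ x₁)).source :=
    (hf₁ x₁).continuousAt.eventually ((chartAt (Cm p) (f₁ x₁)).open_source.mem_nhds
      (mem_chart_source _ _))
  have hvf : ContinuousAt (fun w => v (f₁ w)) x₁ :=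
    ContinuousAt.comp (g := v) (hv _).continuousAt (hf₁ x₁).continuousAt
  have e4 : ∀ᶠ w in 𝓝 x₁, v (f₁ w) ∈ (chartAt (Cm p) y₀).source :=
    hvf.eventually ((chartAt (Cm p) y₀).open_source.mem_nhds (by show v (f₁ x₁) ∈ _; rw [← hcomm]; exact hy))
  have e5 : ∀ᶠ w in 𝓝 x₁, ∀ D ∈ T₁, (w ∈ D ↔ e₁ D w = 0) := by
    rw [Filter.eventually_all_finset]
    intro D hD
    obtain ⟨W, hW, hxW, -, h2, -⟩ := he₁ D hD
    filter_upwards [hW.mem_nhds hxW] with w hw using h2 w hw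
  filter_upwards [hev, e1, e2, e3, e4, e5] with w h1 h2 h3 h4 h5 h6 hoff hdet
  have hne : ∀ D ∈ T₁, e₁ D w ≠ 0 := fun D hD h0 => hoff D ((hT₁ D).1 hD) ((h6 D hD).2 h0)
  have hprod : ∏ D ∈ T₁, e₁ D w ^ κ₁ D ≠ 0 :=
    Finset.prod_ne_zero_iff.2 fun D hD => pow_ne_zero _ (hne D hD)
  have hA := ju_mul (x₁ := x₁) (x₀ := x₀) h2 h3 (hu w)
  have hB := ju_mul (x₁ := f₁ x₁) (x₀ := y₀) h4 h5 (hv (f₁ w))
  have hjφ : jac (Cm n) (chartAt (Cm n) x₁) w ≠ 0 := jac_chart_ne_zero h2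
  have hjψ : jac (Cm n) (chartAt (Cm n) x₀) (u w) ≠ 0 := jac_chart_ne_zero h3
  have hA0 : ju (Cm n) u x₀ x₁ w ≠ 0 := by
    intro h0
    rw [h0, zero_mul] at hA
    exact mul_ne_zero hjψ hdet hA.symm
  refine ⟨hA0, hne, ?_⟩
  have h7 := h1 (fun D hD => hoff D (h𝒜 D hD)) hprod
  unfold RR trn
  rw [hcomm]
  set A := ju (Cm n) u x₀ x₁ w
  set B := ju (Cm p) v y₀ (f₁ x₁) (f₁ w)
  set jφ := jac (Cm n) (chartAt (Cm n) x₁) w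
  set jψ := jac (Cm n) (chartAt (Cm n) x₀) (u w)
  set jη := jac (Cm p) (chartAt (Cm p) y₀) (v (f₁ w))
  set jχ := jac (Cm p) (chartAt (Cm p) (f₁ x₁)) (f₁ w)
  set dv := (dM (Cm p) (Cm p) v (f₁ w)).det
  set du := (dM (Cm n) (Cm n) u w).det
  set PP := ∏ D ∈ T₁, e₁ D w ^ κ₁ D
  have h8 : (jη / jψ) ^ N * (Θ₁ w * (dv / du) ^ N) = (jη * dv) ^ N * Θ₁ w / (jψ * du) ^ N := by
    rw [div_pow, div_pow, mul_pow, mul_pow]
    field_simp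
  rw [h8, ← hA, ← hB, mul_pow, mul_pow]
  have h9 : (A : ℂ) ^ N ≠ 0 := pow_ne_zero _ hA0
  have h10 : jφ ^ N ≠ 0 := pow_ne_zero _ hjφ
  rw [div_mul_eq_mul_div, div_eq_iff (mul_ne_zero h9 h10)]
  calc B ^ N * jχ ^ N * Θ₁ w * (A ^ N * PP) = B ^ N * A ^ N * (jχ ^ N * Θ₁ w * PP) := by ring
    _ = B ^ N * A ^ N * (H₁ w * jφ ^ N) := by rw [h7]
    _ = _ := by ring

end loc

section off
variable {n : ℕ} {X₁ X : Type} [TopologicalSpace X₁] [ChartedSpace (Cm n) X₁]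
  [IsManifold 𝓘(ℂ, Cm n) ω X₁] [TopologicalSpace X] [ChartedSpace (Cm n) X]
  [IsManifold 𝓘(ℂ, Cm n) ω X] {u : X₁ → X} {Δ₁ : Set X₁ → ℝ} {Δ : Set X → ℝ}

theorem exists_eqs {Δ : Set X → ℝ} (h : J.IsSNC (Cm n) Δ) (x : X) : ∃ e : Set X → X → ℂ,
    ∀ D, Δ D ≠ 0 → J.IsLocalEq (Cm n) D (e D) x := by
  have h1 : ∀ D, ∃ g : X → ℂ, Δ D ≠ 0 → J.IsLocalEq (Cm n) D g x := by
    intro D
    by_cases h0 : Δ D ≠ 0
    · obtain ⟨g, hg⟩ := (h.2.1 D h0).2.1 x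
      exact ⟨g, fun _ => hg⟩
    · exact ⟨fun _ => 0, fun h' => absurd h' h0⟩
  choose e he using h1
  exact ⟨e, he⟩

/-- off the support of `Δ`, `u` is étale and the point is off the support of `Δ₁` -/
theorem off (hu : ∀ w, HolM (Cm n) (Cm n) u w) (hΔ₁ : J.IsSNC (Cm n) Δ₁)
    (hΔ : J.IsSNC (Cm n) Δ) {x₁ : X₁} (hl : LogLe n u Δ₁ Δ x₁) (hx : ∀ D, Δ D ≠ 0 → u x₁ ∉ D) :
    (dM (Cm n) (Cm n) u x₁).det ≠ 0 ∧ ∀ D, Δ₁ D ≠ 0 → x₁ ∉ D := by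
  classical
  obtain ⟨e₁, he₁⟩ := exists_eqs hΔ₁ x₁
  obtain ⟨e, he⟩ := exists_eqs hΔ (u x₁)
  obtain ⟨C, hC⟩ := hl hΔ₁.1.toFinset hΔ.1.toFinset e₁ e (fun D => by simp) (fun D => by simp)
    (fun D hD => he₁ D (by simpa using hD)) (fun D hD => he D (by simpa using hD))
  have h1 := hC.self_of_nhds
  have h2 : 0 < ∏ D ∈ hΔ.1.toFinset, ‖e D (u x₁)‖ ^ Δ D := by
    refine Finset.prod_pos fun D hD => Real.rpow_pos_of_pos (norm_pos_iff.2 fun h0 => ?_) _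
    have hD' : Δ D ≠ 0 := by simpa using hD
    obtain ⟨V, -, hxV, -, h3, -⟩ := he D hD'
    exact hx D hD' ((h3 _ hxV).2 h0)
  have h3 := h2.trans_le h1
  have hA := ju_mul (x₁ := x₁) (x₀ := u x₁) (mem_chart_source _ _) (mem_chart_source _ _) (hu x₁)
  refine ⟨fun h0 => ?_, fun D hD hxD => ?_⟩
  · rw [h0, mul_zero] at hA
    have h4 : ju (Cm n) u (u x₁) x₁ x₁ = 0 := by
      rcases mul_eq_zero.1 hA with h5 | h5
      · exact h5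
      · exact absurd h5 (jac_chart_ne_zero (mem_chart_source _ _))
    have h5 : (fderiv ℂ (chartAt (Cm n) (u x₁) ∘ u ∘ (chartAt (Cm n) x₁).symm)
        (chartAt (Cm n) x₁ x₁)).det = 0 := h4
    rw [h5, norm_zero, mul_zero, zero_mul] at h3
    exact lt_irrefl _ h3
  · obtain ⟨V, -, hxV, -, h4, -⟩ := he₁ D hD
    have h5 : e₁ D x₁ = 0 := (h4 _ hxV).1 hxD
    have h6 : ∏ D ∈ hΔ₁.1.toFinset, ‖e₁ D x₁‖ ^ Δ₁ D = 0 := by
      refine Finset.prod_eq_zero (i := D) (by simpa using hD) ?_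
      rw [h5, norm_zero, Real.zero_rpow hD]
    rw [h6, mul_zero] at h3
    exact lt_irrefl _ h3

end off

end Vale.Agent.P281.H389.TG
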