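import Vale.Agent.P281.H389.TG.Hol
import Vale.Agent.P281.H349.TG.Sheet

/-!
# P281, project T-G (helper389), block G6: the bound of the trace; `TraceStmt`
-/

open Set Filter Metric MeasureTheory Vale.Agent.P281 Vale.Agent.P281.H713 Vale.Agent.P272.K
open Vale.Agent.P281.MF Vale.Agent.P281.ISO Vale.Agent.P281.H713.TZ
open Vale.Agent.P281.H64.TU (Tame KTame TameOK RelFormT HasFormsT)
open Vale.Agent.P281.H969.TG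

open scoped Topology ContDiff Manifold ComplexConjugate ComplexOrder ENNReal NNReal

set_option linter.all false

noncomputable section

namespace Vale.Agent.P281.H389.TG

section const
variable {p d : ℕ} {Y₁ Y : Type} [TopologicalSpace Y₁] [ChartedSpace (Cm p) Y₁]
  [IsManifold 𝓘(ℂ, Cm p) ω Y₁] [TopologicalSpace Y] [ChartedSpace (Cm p) Y]
  [IsManifold 𝓘(ℂ, Cm p) ω Y]

/-- a continuous lift of a constant map by an étale map is constant -/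
theorem const_lift {v : Y₁ → Y} (hv : ContMDiff 𝓘(ℂ, Cm p) 𝓘(ℂ, Cm p) ω v) {y : Cm d → Y₁}
    {v₀ : Cm d} {r : ℝ} (hr : 0 < r) (hy : ∀ w ∈ ball v₀ r, ContinuousAt y w)
    (hc : ∀ w ∈ ball v₀ r, v (y w) = v (y v₀))
    (hi : ∀ w ∈ ball v₀ r, Function.Injective (mfderiv 𝓘(ℂ, Cm p) 𝓘(ℂ, Cm p) v (y w))) :
    ∀ w ∈ ball v₀ r, y w = y v₀ := by
  have h1 : ∀ w ∈ ball v₀ r, ∀ᶠ w' in 𝓝 w, y w' = y w := by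
    intro w hw
    obtain ⟨φ, h1, h2, -⟩ := H349.TG.exists_locdiff_man hv (hi w hw)
    filter_upwards [(hy w hw).eventually (φ.open_source.mem_nhds h1), isOpen_ball.mem_nhds hw]
      with w' h3 h4
    refine φ.injOn h3 h1 ?_
    rw [← h2 h3, ← h2 h1, hc w' h4, hc w hw]
  have hU : IsOpen {w | w ∈ ball v₀ r ∧ y w = y v₀} := by
    rw [isOpen_iff_mem_nhds]
    rintro w ⟨hw, hw'⟩
    filter_upwards [h1 w hw, isOpen_ball.mem_nhds hw] with w' h3 h4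
    exact ⟨h4, h3.trans hw'⟩
  have hW : IsOpen {w | w ∈ ball v₀ r ∧ y w ≠ y v₀} := by
    rw [isOpen_iff_mem_nhds]
    rintro w ⟨hw, hw'⟩
    filter_upwards [h1 w hw, isOpen_ball.mem_nhds hw] with w' h3 h4
    exact ⟨h4, fun h => hw' (h3.symm.trans h)⟩
  have h2 : ball v₀ r ⊆ {w | w ∈ ball v₀ r ∧ y w = y v₀} := by
    refine IsPreconnected.subset_left_of_subset_union hU hW ?_ ?_ ?_
      (convex_ball v₀ r).isPreconnected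
    · rw [disjoint_left]
      rintro w ⟨-, h3⟩ ⟨-, h4⟩
      exact h4 h3
    · intro w hw
      by_cases h3 : y w = y v₀
      · exact Or.inl ⟨hw, h3⟩
      · exact Or.inr ⟨hw, h3⟩
    · exact ⟨v₀, mem_ball_self hr, mem_ball_self hr, rfl⟩
  exact fun w hw => (h2 hw).2

end const

section lin
variable {n p d : ℕ}

theorem JP_tr (e₀ : Cm n ≃L[ℂ] (Cm p × Cm d)) {Av : Cm p →L[ℂ] Cm p} {Au : Cm n →L[ℂ] Cm n}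
    {A₁ A : Cm n →L[ℂ] Cm p} (P : Cm n →L[ℂ] Cm d) (h : Av.comp A₁ = A.comp Au) :
    Av.det * JP e₀ A₁ (P.comp Au) = JP e₀ A P * Au.det := by
  rw [← JP_comp, ← h]
  have h1 := JP_left e₀ A₁ (P.comp Au) Av (ContinuousLinearMap.id ℂ (Cm d))
  rw [det_id', mul_one] at h1
  rw [← h1]
  congr 1

end lin

variable {n p d : ℕ} {X₁ Y₁ X Y : Type} [TopologicalSpace X₁] [ChartedSpace (Cm n) X₁]
  [IsManifold 𝓘(ℂ, Cm n) ω X₁] [TopologicalSpace Y₁] [ChartedSpace (Cm p) Y₁]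
  [IsManifold 𝓘(ℂ, Cm p) ω Y₁] [TopologicalSpace X] [ChartedSpace (Cm n) X]
  [IsManifold 𝓘(ℂ, Cm n) ω X] [TopologicalSpace Y] [ChartedSpace (Cm p) Y]
  [IsManifold 𝓘(ℂ, Cm p) ω Y]

variable {u : X₁ → X} {v : Y₁ → Y} {f₁ : X₁ → Y₁} {f : X → Y} {N : ℕ} {Θ₁ : X₁ → ℂ}
  {S₁ : Set Y₁} {S₀ : Set Y} {e₀ : Cm n ≃L[ℂ] (Cm p × Cm d)} {𝒜₁ : Set (Set X₁)}
  {κ₁ : Set X₁ → ℕ} {Δ₁ : Set X₁ → ℝ} {Δ : Set X → ℝ}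
  {w₁ : Chart n X₁ → Cm n → Matrix (Fin n) (Fin n) ℂ}

/-- the bound at one point -/
theorem bound_pt [T2Space X₁] [CompactSpace X₁] [T2Space X] (hL : LiftQStmt)
    (hu : ContMDiff 𝓘(ℂ, Cm n) 𝓘(ℂ, Cm n) ω u) (hv : ContMDiff 𝓘(ℂ, Cm p) 𝓘(ℂ, Cm p) ω v)
    (hf₁ : ContMDiff 𝓘(ℂ, Cm n) 𝓘(ℂ, Cm p) ω f₁) (hf : ContMDiff 𝓘(ℂ, Cm n) 𝓘(ℂ, Cm p) ω f)
    (hcomm : ∀ w, f (u w) = v (f₁ w))
    (het : ∀ y₁, v y₁ ∉ S₀ → Function.Injective (mfderiv 𝓘(ℂ, Cm p) 𝓘(ℂ, Cm p) v y₁))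
    (h𝒜 : ∀ D ∈ 𝒜₁, Δ₁ D ≠ 0) (hΔ₁ : J.IsSNC (Cm n) Δ₁) (hΔ : J.IsSNC (Cm n) Δ)
    (hle : ∀ w, v (f₁ w) ∉ S₀ → LogLe n u Δ₁ Δ w)
    {S : Set Y} (hSS : S₀ ⊆ S) (hSS₁ : ∀ y₁, v y₁ ∉ S → y₁ ∉ S₁) {r K C₁ : ℝ} (hr : 0 < r)
    (hC₁ : ∀ (v₀ : Cm d) (Q : Cm d → X₁),
      (∀ v ∈ ball v₀ r, ContMDiffAt 𝓘(ℂ, Cm d) 𝓘(ℂ, Cm n) ω Q v) → InjOn Q (ball v₀ r) →
      (∀ v ∈ ball v₀ r, f₁ (Q v) = f₁ (Q v₀)) → f₁ (Q v₀) ∉ S₁ →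
      (∀ v ∈ ball v₀ r, ∀ D ∈ 𝒜₁, Q v ∉ D) → KTame w₁ K Q v₀ r → ∀ P : Cm n →L[ℂ] Cm d,
      P.comp (mfderiv 𝓘(ℂ, Cm d) 𝓘(ℂ, Cm n) Q v₀ : Cm d →L[ℂ] Cm n) =
        ContinuousLinearMap.id ℂ (Cm d) →
      ‖Θ₁ (Q v₀)‖ ≤ C₁ * ‖JP e₀ (dM (Cm n) (Cm p) f₁ (Q v₀)) P ^ N‖)
    {v₀ : Cm d} {Q : Cm d → X} (hQ : ∀ v ∈ ball v₀ r, ContMDiffAt 𝓘(ℂ, Cm d) 𝓘(ℂ, Cm n) ω Q v)
    (hinj : InjOn Q (ball v₀ r)) (hfib : ∀ v ∈ ball v₀ r, f (Q v) = f (Q v₀))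
    (hS : f (Q v₀) ∉ S) (hoff : ∀ v ∈ ball v₀ r, ∀ D, Δ D ≠ 0 → Q v ∉ D)
    (htame : UTame u w₁ K Q v₀ r) {P : Cm n →L[ℂ] Cm d}
    (hP : P.comp (mfderiv 𝓘(ℂ, Cm d) 𝓘(ℂ, Cm n) Q v₀ : Cm d →L[ℂ] Cm n) =
      ContinuousLinearMap.id ℂ (Cm d)) {x₁ : X₁} (hx₁ : u x₁ = Q v₀) :
    ‖trn (Cm n) (Cm p) u v f₁ N Θ₁ x₁‖ ≤ C₁ * ‖JP e₀ (dM (Cm n) (Cm p) f (Q v₀)) P ^ N‖ := by
  have hv₀ : v₀ ∈ ball v₀ r := mem_ball_self hr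
  have hgood : ∀ w ∈ ball v₀ r, ∀ x₂, u x₂ = Q w → v (f₁ x₂) ∉ S ∧
      (dM (Cm n) (Cm n) u x₂).det ≠ 0 ∧ ∀ D, Δ₁ D ≠ 0 → x₂ ∉ D := by
    intro w hw x₂ hx₂
    have h1 : v (f₁ x₂) ∉ S := by rw [← hcomm, hx₂, hfib w hw]; exact hS
    refine ⟨h1, off (fun w => hu w) hΔ₁ hΔ (hle x₂ fun h => h1 (hSS h)) ?_⟩
    rw [hx₂]; exact hoff w hw
  obtain ⟨Q₁, hQ₁0, hQ₁⟩ := hL n d X₁ X u hu Q v₀ r hr (fun w hw => ⟨hQ w hw, fun x₂ hx₂ =>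
    (H308.Bir.bij_of_det_ne (hgood w hw x₂ hx₂).2.1).1⟩) x₁ hx₁
  have hinj₁ : InjOn Q₁ (ball v₀ r) := by
    intro a ha b hb hab
    refine hinj ha hb ?_
    rw [← (hQ₁ a ha).2, ← (hQ₁ b hb).2, hab]
  have hconst : ∀ w ∈ ball v₀ r, f₁ (Q₁ w) = f₁ (Q₁ v₀) := by
    refine const_lift (y := fun w => f₁ (Q₁ w)) hv hr (fun w hw => ?_) (fun w hw => ?_)
      (fun w hw => ?_)
    · exact ContinuousAt.comp (g := f₁) hf₁.continuous.continuousAt (hQ₁ w hw).1.continuousAt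
    · show v (f₁ (Q₁ w)) = v (f₁ (Q₁ v₀))
      rw [← hcomm, ← hcomm, (hQ₁ w hw).2, (hQ₁ v₀ hv₀).2, hfib w hw]
    · exact het _ fun h => (hgood w hw _ (hQ₁ w hw).2).1 (hSS h)
  obtain ⟨g1, g2, g3⟩ := hgood v₀ hv₀ x₁ hx₁
  set Au : Cm n →L[ℂ] Cm n := dM (Cm n) (Cm n) u x₁ with hAu
  have hPQ : (P.comp Au).comp (mfderiv 𝓘(ℂ, Cm d) 𝓘(ℂ, Cm n) Q₁ v₀ : Cm d →L[ℂ] Cm n) =
      ContinuousLinearMap.id ℂ (Cm d) := by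
    have h1 : (fun w => u (Q₁ w)) =ᶠ[𝓝 v₀] Q := by
      filter_upwards [isOpen_ball.mem_nhds hv₀] with w hw using (hQ₁ w hw).2
    have h2 : mfderiv 𝓘(ℂ, Cm d) 𝓘(ℂ, Cm n) (u ∘ Q₁) v₀ =
        (mfderiv 𝓘(ℂ, Cm n) 𝓘(ℂ, Cm n) u (Q₁ v₀)).comp
          (mfderiv 𝓘(ℂ, Cm d) 𝓘(ℂ, Cm n) Q₁ v₀) :=
      mfderiv_comp v₀ ((hu (Q₁ v₀)).mdifferentiableAt (by simp))
        ((hQ₁ v₀ hv₀).1.mdifferentiableAt (by simp))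
    have h3 : mfderiv 𝓘(ℂ, Cm d) 𝓘(ℂ, Cm n) (u ∘ Q₁) v₀ =
        mfderiv 𝓘(ℂ, Cm d) 𝓘(ℂ, Cm n) Q v₀ := h1.mfderiv_eq
    rw [h3] at h2
    have h4 : (mfderiv 𝓘(ℂ, Cm n) 𝓘(ℂ, Cm n) u (Q₁ v₀) : Cm n →L[ℂ] Cm n) = Au := by
      rw [hAu, hQ₁0]; rfl
    have h5 : (mfderiv 𝓘(ℂ, Cm d) 𝓘(ℂ, Cm n) Q v₀ : Cm d →L[ℂ] Cm n) =
        Au.comp (mfderiv 𝓘(ℂ, Cm d) 𝓘(ℂ, Cm n) Q₁ v₀ : Cm d →L[ℂ] Cm n) := by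
      rw [← h4]; exact h2
    refine ContinuousLinearMap.ext fun ξ => ?_
    have h6 := congrArg (fun L : Cm d →L[ℂ] Cm d => L ξ) hP
    have h7 := congrArg (fun L : Cm d →L[ℂ] Cm n => P (L ξ)) h5
    exact h7.symm.trans h6
  have hb := hC₁ v₀ Q₁ (fun w hw => (hQ₁ w hw).1) hinj₁ hconst
    (hSS₁ _ (hgood v₀ hv₀ _ (hQ₁ v₀ hv₀).2).1)
    (fun w hw D hD => (hgood w hw _ (hQ₁ w hw).2).2.2 D (h𝒜 D hD)) (htame Q₁ hQ₁) (P.comp Au) hPQ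
  rw [hQ₁0] at hb
  set Av : Cm p →L[ℂ] Cm p := dM (Cm p) (Cm p) v (f₁ x₁) with hAv
  have hchain : Av.comp (dM (Cm n) (Cm p) f₁ x₁) = (dM (Cm n) (Cm p) f (Q v₀)).comp Au := by
    have h1 : mfderiv 𝓘(ℂ, Cm n) 𝓘(ℂ, Cm p) (f ∘ u) x₁ =
        (mfderiv 𝓘(ℂ, Cm n) 𝓘(ℂ, Cm p) f (u x₁)).comp (mfderiv 𝓘(ℂ, Cm n) 𝓘(ℂ, Cm n) u x₁) :=
      mfderiv_comp x₁ ((hf (u x₁)).mdifferentiableAt (by simp))
        ((hu x₁).mdifferentiableAt (by simp))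
    have h2 : mfderiv 𝓘(ℂ, Cm n) 𝓘(ℂ, Cm p) (v ∘ f₁) x₁ =
        (mfderiv 𝓘(ℂ, Cm p) 𝓘(ℂ, Cm p) v (f₁ x₁)).comp
          (mfderiv 𝓘(ℂ, Cm n) 𝓘(ℂ, Cm p) f₁ x₁) :=
      mfderiv_comp x₁ ((hv (f₁ x₁)).mdifferentiableAt (by simp))
        ((hf₁ x₁).mdifferentiableAt (by simp))
    have h3 : f ∘ u = v ∘ f₁ := funext hcomm
    rw [h3] at h1
    rw [← hx₁]
    exact h2.symm.trans h1
  have hJ := JP_tr e₀ P hchain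
  have hdu : 0 < ‖Au.det‖ := norm_pos_iff.2 g2
  unfold trn
  rw [← hAv, ← hAu, norm_mul, norm_pow, norm_div, norm_pow]
  have hJ' : ‖Av.det‖ * ‖JP e₀ (dM (Cm n) (Cm p) f₁ x₁) (P.comp Au)‖ =
      ‖JP e₀ (dM (Cm n) (Cm p) f (Q v₀)) P‖ * ‖Au.det‖ := by
    rw [← norm_mul, ← norm_mul, hJ]
  rw [norm_pow] at hb
  have h6 : ‖JP e₀ (dM (Cm n) (Cm p) f₁ x₁) (P.comp Au)‖ * (‖Av.det‖ / ‖Au.det‖) =
      ‖JP e₀ (dM (Cm n) (Cm p) f (Q v₀)) P‖ := by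
    rw [← mul_div_assoc, mul_comm, hJ', mul_div_assoc, div_self hdu.ne', mul_one]
  calc ‖Θ₁ x₁‖ * (‖Av.det‖ / ‖Au.det‖) ^ N
      ≤ C₁ * ‖JP e₀ (dM (Cm n) (Cm p) f₁ x₁) (P.comp Au)‖ ^ N * (‖Av.det‖ / ‖Au.det‖) ^ N :=
        mul_le_mul_of_nonneg_right hb (by positivity)
    _ = C₁ * (‖JP e₀ (dM (Cm n) (Cm p) f₁ x₁) (P.comp Au)‖ * (‖Av.det‖ / ‖Au.det‖)) ^ N := by
        rw [mul_pow]; ring
    _ = _ := by rw [h6]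

/-- **G6** -/
theorem traceStmt (hSh : SheetStmt) (hL : LiftQStmt) : TraceStmt := by
  intro p d N k m X₁ Y₁ X Y _ _ _ _ _ _ _ _ _ _ _ _ _ _ _ _ _ _ f₁ Δ₁ f Δ u v S₀ S S₁ w₁ e₀
    𝒜₁ κ₁ Θ₁ κ hd hk hsq hf₁ hf hΔ₁ hΔ hSc hSS hSS₁ hsub hm hR h𝒜 hκ₁ hκ
  have hu' : ∀ w, HolM (Cm (p + d)) (Cm (p + d)) u w := fun w => hsq.holu w
  have hv' : ∀ w, HolM (Cm p) (Cm p) v w := fun w => hsq.holv w
  have hf₁' : ∀ w, HolM (Cm (p + d)) (Cm p) f₁ w := fun w => hf₁ w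
  have hf' : ∀ w, HolM (Cm (p + d)) (Cm p) f w := fun w => hf w
  refine ⟨?_, ?_⟩
  · intro x₀ x y₀ hS hx hy T e hT he
    obtain ⟨H, hH, hev⟩ := hol_tr hSh hu' hv' hf₁' hf' hsq.comm hR h𝒜 hκ₁ hΔ₁ hΔ hsq.small.1
      hsq.le hSc hSS hSS₁ hm hκ x₀ x y₀ hS hx hy T e hT he
    exact ⟨H, hH, hev.mono fun z hz h1 _ => hz h1⟩
  · intro r K hr hK
    obtain ⟨C₁, hC₁⟩ := hR.bound r K hr hK
    refine ⟨m * (max C₁ 0) ^ k, ?_⟩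
    intro v₀ Q hQ hinj hfib hS hoff htame P hP
    have hoff' : ∀ D, Δ D ≠ 0 → Q v₀ ∉ D := hoff v₀ (mem_ball_self hr)
    have hfin : (u ⁻¹' {Q v₀}).Finite := Set.finite_of_encard_le_coe (hm _ hS hoff')
    have hcard : (hfin.toFinset.card : ℝ) ≤ m := by
      have h4 := hm _ hS hoff'
      rw [hfin.encard_eq_coe_toFinset_card] at h4
      exact_mod_cast h4
    have hpt : ∀ x₁ ∈ hfin.toFinset, ‖trn (Cm (p + d)) (Cm p) u v f₁ N Θ₁ x₁ ^ k‖ ≤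
        (max C₁ 0) ^ k * ‖JP e₀ (dM (Cm (p + d)) (Cm p) f (Q v₀)) P ^ (k * N)‖ := by
      intro x₁ hx₁
      have hx₁' : u x₁ = Q v₀ := by simpa using hx₁
      have h1 := bound_pt hL hsq.holu hsq.holv hf₁ hf hsq.comm hsq.etale h𝒜 hΔ₁ hΔ hsq.le hSS
        hSS₁ hr hC₁ hQ hinj hfib hS hoff htame hP hx₁'
      rw [norm_pow, mul_comm k N, pow_mul, norm_pow (_ ^ N), ← mul_pow]
      refine pow_le_pow_left₀ (norm_nonneg _) (h1.trans ?_) k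
      exact mul_le_mul_of_nonneg_right (le_max_left _ _) (norm_nonneg _)
    unfold tr
    rw [finsum_mem_eq_finite_toFinset_sum _ hfin]
    refine (norm_sum_le _ _).trans ((Finset.sum_le_card_nsmul _ _ _ hpt).trans ?_)
    rw [nsmul_eq_mul, mul_assoc]
    exact mul_le_mul_of_nonneg_right hcard (by positivity)

end Vale.Agent.P281.H389.TG
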