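import Vale.Agent.P281.H969.TG.Core
import Vale.Agent.P281.H389.TG.Bound
import Vale.Agent.P281.H176.TG.Card
import Vale.Agent.P281.H180.TG.Pow
import Vale.Agent.P281.H282.TG.TameU
import Vale.Agent.P281.H456.TG.VSmall
import Vale.Agent.P281.H364.TD.D8
import Vale.Agent.P281.H383.U.Main
import Vale.Agent.P281.H364.Gen.Crit
import Vale.Agent.P281.H150.Gen.Img

/-!
# P281, project T-G: the goal
-/

namespace Vale.Agent.P281.H389.TG

/-- **T-G** -/
theorem tg : H969.TG.TGStmt :=
  H969.TG.tg_of (H364.crit H150.Gen.img) H364.TD.fibIn H383.U.liftT H282.TG.tameU H456.TG.vSmall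
    (H176.TG.cardStmt H349.TG.sheet) (traceStmt H349.TG.sheet H349.TG.liftQ) H180.TG.pow

end Vale.Agent.P281.H389.TG
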