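import Vale.Agent.P281.H389.TG.Bd
import Vale.Agent.P281.ISO.Ext3
import Vale.Agent.P281.H308.Bir.Inv

/-!
# P281, project T-G (helper389), block G6: the trace is holomorphic
-/

open Set Filter Metric MeasureTheory Vale.Agent.P281 Vale.Agent.P281.H713 Vale.Agent.P272.K
open Vale.Agent.P281.MF Vale.Agent.P281.ISO Vale.Agent.P281.H713.TZ
open Vale.Agent.P281.H64.TU (Tame KTame TameOK RelFormT HasFormsT)
open Vale.Agent.P281.H969.TG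

open scoped Topology ContDiff Manifold ComplexConjugate ComplexOrder ENNReal NNReal

set_option linter.all false

noncomputable section

namespace Vale.Agent.P281.H389.TG

section prod
variable {n : ℕ} {X : Type} [TopologicalSpace X] [T2Space X] [ChartedSpace (Cm n) X]
  [IsManifold 𝓘(ℂ, Cm n) ω X]

theorem prod_freq {ι : Type} (T : Finset ι) (g : ι → X → ℂ) (x : X)
    (h : ∀ D ∈ T, HolV (Cm n) (g D) x) (h' : ∀ D ∈ T, ∃ᶠ z in 𝓝 x, g D z ≠ 0) :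
    ∃ᶠ z in 𝓝 x, ∏ D ∈ T, g D z ≠ 0 := by
  classical
  induction T using Finset.induction_on with
  | empty =>
    simp only [Finset.prod_empty]
    exact (Eventually.of_forall fun z => one_ne_zero).frequently
  | insert a T ha ih =>
    have h1 := ih (fun D hD => h D (Finset.mem_insert_of_mem hD))
      (fun D hD => h' D (Finset.mem_insert_of_mem hD))
    have h2 : ∀ᶠ y in 𝓝 x, ∃ᶠ z in 𝓝 y, g a z ≠ 0 := by
      refine H383.Gen.ne_freq (h a (Finset.mem_insert_self _ _)) fun hc => ?_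
      exact h' a (Finset.mem_insert_self _ _) (hc.mono fun z hz h0 => h0 hz)
    have h3 : ∀ᶠ y in 𝓝 x, ContinuousAt (fun z => ∏ D ∈ T, g D z) y := by
      have h4 : HolV (Cm n) (fun z => ∏ D ∈ T, g D z) x :=
        HolV.prod fun D hD => h D (Finset.mem_insert_of_mem hD)
      exact h4.eventually.mono fun y hy => hy.continuousAt
    have h5 : ∃ᶠ y in 𝓝 x, ∃ᶠ z in 𝓝 y, ∏ D ∈ insert a T, g D z ≠ 0 := by
      refine (h1.and_eventually (h2.and h3)).mono ?_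
      rintro y ⟨hy1, hy2, hy3⟩
      refine (hy2.and_eventually (hy3.eventually_ne hy1)).mono ?_
      rintro z ⟨hz1, hz2⟩
      rw [Finset.prod_insert ha]
      exact mul_ne_zero hz1 hz2
    exact frequently_frequently_nhds.1 h5

end prod

variable {n p d : ℕ} {X₁ Y₁ X Y : Type} [TopologicalSpace X₁] [ChartedSpace (Cm n) X₁]
  [IsManifold 𝓘(ℂ, Cm n) ω X₁] [TopologicalSpace Y₁] [ChartedSpace (Cm p) Y₁]
  [IsManifold 𝓘(ℂ, Cm p) ω Y₁] [TopologicalSpace X] [ChartedSpace (Cm n) X]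
  [IsManifold 𝓘(ℂ, Cm n) ω X] [TopologicalSpace Y] [ChartedSpace (Cm p) Y]
  [IsManifold 𝓘(ℂ, Cm p) ω Y]

variable {u : X₁ → X} {v : Y₁ → Y} {f₁ : X₁ → Y₁} {f : X → Y} {N : ℕ} {Θ₁ : X₁ → ℂ}
  {S₁ : Set Y₁} {S₀ : Set Y} {e₀ : Cm n ≃L[ℂ] (Cm p × Cm d)} {𝒜₁ : Set (Set X₁)}
  {κ₁ : Set X₁ → ℕ} {T' : Tame (Cm d) X₁} {Δ₁ : Set X₁ → ℝ} {Δ : Set X → ℝ}

theorem kappa_ne {κ₁ : Set X₁ → ℕ} (hκ : ∀ D, (κ₁ D : ℝ) ≤ N * Δ₁ D) :
    ∀ D, κ₁ D ≠ 0 → Δ₁ D ≠ 0 := by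
  intro D hD h0
  have h1 := hκ D
  rw [h0, mul_zero] at h1
  have h2 : (0 : ℝ) < κ₁ D := by exact_mod_cast Nat.pos_of_ne_zero hD
  linarith

/-- the transported form is holomorphic, where `u` is étale -/
theorem RR_hol (hu : ∀ w, HolM (Cm n) (Cm n) u w) (hv : ∀ w, HolM (Cm p) (Cm p) v w)
    (hf₁ : ∀ w, HolM (Cm n) (Cm p) f₁ w) (hcomm : ∀ w, f (u w) = v (f₁ w))
    (hR : RelFormT T' f₁ S₁ e₀ N 𝒜₁ κ₁ Θ₁) (h𝒜 : ∀ D ∈ 𝒜₁, Δ₁ D ≠ 0)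
    (hκ : ∀ D, (κ₁ D : ℝ) ≤ N * Δ₁ D) (hΔ₁ : J.IsSNC (Cm n) Δ₁) (hΔ : J.IsSNC (Cm n) Δ)
    (hle : ∀ w, v (f₁ w) ∉ S₀ → LogLe n u Δ₁ Δ w)
    {S : Set Y} (hSS : S₀ ⊆ S) (hSS₁ : ∀ y₁, v y₁ ∉ S → y₁ ∉ S₁)
    {x₁ : X₁} {x₀ : X} {y₀ : Y} (hx : u x₁ ∈ (chartAt (Cm n) x₀).source)
    (hy : f (u x₁) ∈ (chartAt (Cm p) y₀).source)
    (hg : ∀ᶠ z in 𝓝 (u x₁), f z ∉ S ∧ ∀ D, Δ D ≠ 0 → z ∉ D) :
    HolV (Cm n) (RR n p u v f₁ f N Θ₁ x₀ y₀) x₁ := by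
  classical
  set T₁ := hΔ₁.1.toFinset with hT₁d
  have hT₁ : ∀ D, D ∈ T₁ ↔ Δ₁ D ≠ 0 := fun D => by simp [hT₁d]
  obtain ⟨e₁, he₁'⟩ := exists_eqs hΔ₁ x₁
  have he₁ : ∀ D ∈ T₁, IsLocalEq (Cm n) D (e₁ D) x₁ := fun D hD => he₁' D ((hT₁ D).1 hD)
  have hg' := (hu x₁).continuousAt.eventually hg
  have hS : f₁ x₁ ∉ S₁ := hSS₁ _ (by rw [← hcomm]; exact hg.self_of_nhds.1)
  obtain ⟨H₁, hH₁, hloc⟩ := loc hu hv hf₁ hcomm hR h𝒜 (kappa_ne hκ) hS hx hy T₁ hT₁ e₁ he₁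
  have hA : HolV (Cm n) (ju (Cm n) u x₀ x₁) x₁ := ju_hol (mem_chart_source _ _) hx (hu x₁)
  have hB : HolV (Cm n) (fun w => ju (Cm p) v y₀ (f₁ x₁) (f₁ w)) x₁ := by
    have h1 : HolV (Cm p) (ju (Cm p) v y₀ (f₁ x₁)) (f₁ x₁) :=
      ju_hol (mem_chart_source _ _) (by rw [← hcomm]; exact hy) (hv _)
    exact HolV.comp h1 (hf₁ x₁)
  have hE : HolV (Cm n) (fun w => ∏ D ∈ T₁, e₁ D w ^ κ₁ D) x₁ := by
    refine HolV.prod (g := fun D w => e₁ D w ^ κ₁ D) fun D hD => ?_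
    obtain ⟨W, hW, hxW, h1, -, -⟩ := he₁ D hD
    exact HolV.pow (h1 x₁ hxW) _
  have hgood : ∀ᶠ w in 𝓝 x₁, (dM (Cm n) (Cm n) u w).det ≠ 0 ∧ ∀ D, Δ₁ D ≠ 0 → w ∉ D := by
    filter_upwards [hg'] with w hw
    exact off hu hΔ₁ hΔ (hle w (fun h => hw.1 (by rw [hcomm]; exact hSS h))) hw.2
  have hev : ∀ᶠ w in 𝓝 x₁, ju (Cm n) u x₀ x₁ w ^ N * ∏ D ∈ T₁, e₁ D w ^ κ₁ D ≠ 0 ∧
      RR n p u v f₁ f N Θ₁ x₀ y₀ w = ju (Cm p) v y₀ (f₁ x₁) (f₁ w) ^ N * H₁ w /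
        (ju (Cm n) u x₀ x₁ w ^ N * ∏ D ∈ T₁, e₁ D w ^ κ₁ D) := by
    filter_upwards [hloc, hgood] with w h1 h2
    obtain ⟨h3, h4, h5⟩ := h1 h2.2 h2.1
    have h6 : ju (Cm n) u x₀ x₁ w ^ N * ∏ D ∈ T₁, e₁ D w ^ κ₁ D ≠ 0 :=
      mul_ne_zero (pow_ne_zero _ h3) (Finset.prod_ne_zero_iff.2 fun D hD => pow_ne_zero _ (h4 D hD))
    exact ⟨h6, by rw [eq_div_iff h6, h5]⟩
  have h7 : HolV (Cm n) (fun w => ju (Cm p) v y₀ (f₁ x₁) (f₁ w) ^ N * H₁ w /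
        (ju (Cm n) u x₀ x₁ w ^ N * ∏ D ∈ T₁, e₁ D w ^ κ₁ D)) x₁ :=
    HolV.div (g := fun w => ju (Cm p) v y₀ (f₁ x₁) (f₁ w) ^ N * H₁ w)
      (h := fun w => ju (Cm n) u x₀ x₁ w ^ N * ∏ D ∈ T₁, e₁ D w ^ κ₁ D)
      (HolV.mul (HolV.pow hB N) hH₁) (HolV.mul (HolV.pow hA N) hE) hev.self_of_nhds.1
  exact h7.congr (hev.mono fun w hw => hw.2)

theorem finsum_fib {ι : Type} [Fintype ι] {A : Set X₁} (s : ι → X₁) (hs : Function.Injective s)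
    (hA : A = range s) (F : X₁ → ℂ) : ∑ᶠ w ∈ A, F w = ∑ j, F (s j) := by
  rw [hA, finsum_mem_range hs, finsum_eq_sum_of_fintype]

/-- **`hol`** -/
theorem hol_tr [T2Space X₁] [CompactSpace X₁] [T2Space X] (hSh : SheetStmt) {k m : ℕ}
    (hu : ∀ w, HolM (Cm n) (Cm n) u w) (hv : ∀ w, HolM (Cm p) (Cm p) v w)
    (hf₁ : ∀ w, HolM (Cm n) (Cm p) f₁ w) (hf : ∀ w, HolM (Cm n) (Cm p) f w)
    (hcomm : ∀ w, f (u w) = v (f₁ w))
    (hR : RelFormT T' f₁ S₁ e₀ N 𝒜₁ κ₁ Θ₁) (h𝒜 : ∀ D ∈ 𝒜₁, Δ₁ D ≠ 0)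
    (hκ₁ : ∀ D, (κ₁ D : ℝ) ≤ N * Δ₁ D) (hΔ₁ : J.IsSNC (Cm n) Δ₁) (hΔ : J.IsSNC (Cm n) Δ)
    (hS₀ : IsClosed S₀) (hle : ∀ w, v (f₁ w) ∉ S₀ → LogLe n u Δ₁ Δ w)
    {S : Set Y} (hSc : IsClosed S) (hSS : S₀ ⊆ S) (hSS₁ : ∀ y₁, v y₁ ∉ S → y₁ ∉ S₁)
    (hm : ∀ x, f x ∉ S → (∀ D, Δ D ≠ 0 → x ∉ D) → (u ⁻¹' {x}).encard ≤ m)
    {κ : Set X → ℕ} (hκ : ∀ D, (κ D : ℝ) = k * (N * Δ D))
    (x₀ x : X) (y₀ : Y) (hS : f x ∉ S)
    (hx : x ∈ (chartAt (Cm n) x₀).source) (hy : f x ∈ (chartAt (Cm p) y₀).source)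
    (T : Finset (Set X)) (e : Set X → X → ℂ) (hT : ∀ D, κ D ≠ 0 → D ∈ T)
    (he : ∀ D ∈ T, IsLocalEq (Cm n) D (e D) x) :
    ∃ H : X → ℂ, HolV (Cm n) H x ∧ ∀ᶠ z in 𝓝 x, (∀ D, Δ D ≠ 0 → z ∉ D) →
      jac (Cm p) (chartAt (Cm p) y₀) (f z) ^ (k * N) * tr (Cm n) (Cm p) u v f₁ N k Θ₁ z *
        ∏ D ∈ T, e D z ^ κ D = H z * jac (Cm n) (chartAt (Cm n) x₀) z ^ (k * N) := by
  classical
  set TT := hΔ.1.toFinset with hTTd
  have hTT : ∀ D, D ∈ TT ↔ Δ D ≠ 0 := fun D => by simp [hTTd]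
  obtain ⟨ē, hē⟩ := exists_eqs hΔ x
  set e' : Set X → X → ℂ := fun D => if D ∈ T then e D else ē D with he'd
  have he'T : ∀ D ∈ T, e' D = e D := fun D hD => by rw [he'd]; exact if_pos hD
  have he' : ∀ D ∈ TT, IsLocalEq (Cm n) D (e' D) x := by
    intro D hD
    by_cases h : D ∈ T
    · rw [he'T D h]; exact he D h
    · have : e' D = ē D := by rw [he'd]; exact if_neg h
      rw [this]; exact hē D ((hTT D).1 hD)
  have hκ0 : ∀ D, Δ D = 0 → κ D = 0 := by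
    intro D h0
    have h1 := hκ D
    rw [h0, mul_zero, mul_zero] at h1
    exact_mod_cast h1
  obtain ⟨C, hC0, hC⟩ := bd_fib hu hv hf₁ hcomm hR h𝒜 hκ₁ hΔ₁ hΔ hS₀ hle hSS hSS₁ hS hx hy TT hTT
    e' he'
  set G : X → ℂ := fun z => (∏ D ∈ T, e D z ^ κ D) *
    ∑ᶠ w ∈ u ⁻¹' {z}, RR n p u v f₁ f N Θ₁ x₀ y₀ w ^ k with hGd
  set Den : X → ℂ := fun z => ∏ D ∈ TT, e' D z with hDend
  have hDen : HolV (Cm n) Den x := by
    refine HolV.prod (g := e') fun D hD => ?_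
    obtain ⟨W, hW, hxW, h1, -, -⟩ := he' D hD
    exact h1 x hxW
  have hne : ¬ ∀ᶠ z in 𝓝 x, Den z = 0 := by
    intro hc
    refine prod_freq (n := n) TT e' x (fun D hD => ?_) (fun D hD => H76.frequently_ne (he' D hD))
      (hc.mono fun z hz h0 => h0 hz)
    obtain ⟨W, hW, hxW, h1, -, -⟩ := he' D hD
    exact h1 x hxW
  -- near `x`
  have e1 : ∀ᶠ z in 𝓝 x, f z ∉ S := (hf x).continuousAt.eventually (hSc.isOpen_compl.mem_nhds hS)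
  have e2 : ∀ᶠ z in 𝓝 x, ∀ D ∈ TT, (z ∈ D ↔ e' D z = 0) := by
    rw [Filter.eventually_all_finset]
    intro D hD
    obtain ⟨W, hW, hxW, -, h2, -⟩ := he' D hD
    filter_upwards [hW.mem_nhds hxW] with w hw using h2 w hw
  have e2' : ∀ᶠ z in 𝓝 x, (Den z ≠ 0 ↔ ∀ D, Δ D ≠ 0 → z ∉ D) := by
    filter_upwards [e2] with z hz
    rw [hDend]
    simp only
    rw [Finset.prod_ne_zero_iff]
    constructor
    · intro h D hD hzD
      exact h D ((hTT D).2 hD) ((hz D ((hTT D).2 hD)).1 hzD)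
    · intro h D hD h0
      exact h D ((hTT D).1 hD) ((hz D hD).2 h0)
  have e3 : ∀ᶠ z in 𝓝 x, z ∈ (chartAt (Cm n) x₀).source :=
    (chartAt (Cm n) x₀).open_source.mem_nhds hx
  have e4 : ∀ᶠ z in 𝓝 x, f z ∈ (chartAt (Cm p) y₀).source :=
    (hf x).continuousAt.eventually ((chartAt (Cm p) y₀).open_source.mem_nhds hy)
  have e5 : ∀ᶠ z in 𝓝 x, ∀ D ∈ T, HolV (Cm n) (e D) z := by
    rw [Filter.eventually_all_finset]
    intro D hD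
    obtain ⟨W, hW, hxW, h1, -, -⟩ := he D hD
    filter_upwards [hW.mem_nhds hxW] with w hw using h1 w hw
  have e6 : ∀ᶠ z in 𝓝 x, ContinuousAt Den z := hDen.eventually.mono fun z hz => hz.continuousAt
  -- holomorphic
  have hh : ∀ᶠ z in 𝓝 x, Den z ≠ 0 → HolV (Cm n) G z := by
    filter_upwards [e1, eventually_eventually_nhds.2 (e1.and e2'), e3, e4, e5, e6]
      with z h1 h2 h3 h4 h5 h6 hz
    have hgood : ∀ᶠ z' in 𝓝 z, f z' ∉ S ∧ ∀ D, Δ D ≠ 0 → z' ∉ D := by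
      filter_upwards [h2, h6.eventually_ne hz] with z' h7 h8
      exact ⟨h7.1, h7.2.1 h8⟩
    have het : ∀ x₁, u x₁ = z → Function.Injective (mfderiv 𝓘(ℂ, Cm n) 𝓘(ℂ, Cm n) u x₁) := by
      intro x₁ hx₁
      have h9 := (off hu hΔ₁ hΔ (hle x₁ (fun h => h1 (by rw [← hx₁, hcomm]; exact hSS h)))
        (by rw [hx₁]; exact hgood.self_of_nhds.2)).1
      exact (H308.Bir.bij_of_det_ne h9).1
    obtain ⟨m', s, V, hV, hzV, hs1, hs2, hs3⟩ := hSh n X₁ X u (fun w => hu w) z het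
    have hsum : ∀ z' ∈ V, ∑ᶠ w ∈ u ⁻¹' {z'}, RR n p u v f₁ f N Θ₁ x₀ y₀ w ^ k =
        ∑ j, RR n p u v f₁ f N Θ₁ x₀ y₀ (s j z') ^ k := by
      intro z' hz'
      refine finsum_fib (fun j => s j z') (hs2 z' hz') ?_ (fun w => RR n p u v f₁ f N Θ₁ x₀ y₀ w ^ k)
      ext w
      constructor
      · intro hw
        exact (hs3 z' hz' w hw).1
      · rintro ⟨j, rfl⟩
        exact (hs1 j z' hz').2
    have h10 : HolV (Cm n) (fun z' => (∏ D ∈ T, e D z' ^ κ D) *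
        ∑ j, RR n p u v f₁ f N Θ₁ x₀ y₀ (s j z') ^ k) z := by
      refine HolV.mul (HolV.prod (g := fun D z' => e D z' ^ κ D) fun D hD => HolV.pow (h5 D hD) _)
        (HolV.sum (g := fun j z' => RR n p u v f₁ f N Θ₁ x₀ y₀ (s j z') ^ k) fun j _ => ?_)
      refine HolV.pow (g := fun z' => RR n p u v f₁ f N Θ₁ x₀ y₀ (s j z')) ?_ k
      have h11 : u (s j z) = z := (hs1 j z hzV).2
      refine HolV.comp (h := RR n p u v f₁ f N Θ₁ x₀ y₀) (f := s j) ?_ (hs1 j z hzV).1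
      exact RR_hol hu hv hf₁ hcomm hR h𝒜 hκ₁ hΔ₁ hΔ hle hSS hSS₁ (by rw [h11]; exact h3)
        (by rw [h11]; exact h4) (by rw [h11]; exact hgood)
    refine h10.congr ?_
    filter_upwards [hV.mem_nhds hzV] with z' hz'
    simp only [hGd]
    rw [hsum z' hz']
  -- bounded
  have hbd : ∀ᶠ z in 𝓝 x, Den z ≠ 0 → ‖G z‖ ≤ m * C ^ k := by
    filter_upwards [e1, e2', hC] with z h1 h2 h3 hz
    have hoff := h2.1 hz
    have hfin : (u ⁻¹' {z}).Finite := Set.finite_of_encard_le_coe (hm z h1 hoff)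
    have hcard : (hfin.toFinset.card : ℝ) ≤ m := by
      have h4 := hm z h1 hoff
      rw [hfin.encard_eq_coe_toFinset_card] at h4
      exact_mod_cast h4
    have hpos : ∀ D ∈ TT, 0 < ‖e' D z‖ := fun D hD => by
      rw [hDend] at hz
      simp only at hz
      exact norm_pos_iff.2 (Finset.prod_ne_zero_iff.1 hz D hD)
    have hP : ‖∏ D ∈ T, e D z ^ κ D‖ = ((∏ D ∈ TT, ‖e' D z‖ ^ Δ D) ^ N) ^ k := by
      rw [norm_prod]
      have h5 : ∏ D ∈ T, ‖e D z ^ κ D‖ = ∏ D ∈ T ∩ TT, ‖e' D z‖ ^ κ D := by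
        have h6 : ∏ D ∈ T, ‖e D z ^ κ D‖ = ∏ D ∈ T, ‖e' D z‖ ^ κ D :=
          Finset.prod_congr rfl fun D hD => by rw [norm_pow, he'T D hD]
        rw [h6]
        symm
        refine Finset.prod_subset Finset.inter_subset_left fun D hD hD' => ?_
        have h7 : D ∉ TT := fun h => hD' (Finset.mem_inter.2 ⟨hD, h⟩)
        have h8 : Δ D = 0 := by
          by_contra h; exact h7 ((hTT D).2 h)
        rw [hκ0 D h8, pow_zero]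
      have h6 : ∏ D ∈ T ∩ TT, ‖e' D z‖ ^ κ D = ∏ D ∈ TT, ‖e' D z‖ ^ κ D := by
        refine Finset.prod_subset Finset.inter_subset_right fun D hD hD' => ?_
        have h7 : D ∉ T := fun h => hD' (Finset.mem_inter.2 ⟨h, hD⟩)
        have h8 : κ D = 0 := by
          by_contra h; exact h7 (hT D h)
        rw [h8, pow_zero]
      rw [h5, h6, ← Finset.prod_pow, ← Finset.prod_pow]
      refine Finset.prod_congr rfl fun D hD => ?_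
      rw [← Real.rpow_natCast (‖e' D z‖) (κ D), ← pow_mul, ← Real.rpow_natCast (‖e' D z‖ ^ Δ D),
        ← Real.rpow_mul (norm_nonneg _), hκ D]
      congr 1
      push_cast
      ring
    have h4 : G z = ∑ w ∈ hfin.toFinset, (∏ D ∈ T, e D z ^ κ D) *
        RR n p u v f₁ f N Θ₁ x₀ y₀ w ^ k := by
      rw [← Finset.mul_sum]
      simp only [hGd]
      congr 1
      exact finsum_mem_eq_finite_toFinset_sum _ hfin
    rw [h4]
    refine (norm_sum_le _ _).trans ?_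
    have h5 : ∀ w ∈ hfin.toFinset, ‖(∏ D ∈ T, e D z ^ κ D) *
        RR n p u v f₁ f N Θ₁ x₀ y₀ w ^ k‖ ≤ C ^ k := by
      intro w hw
      have hw' : u w = z := by simpa using hw
      rw [norm_mul, hP, norm_pow, ← mul_pow]
      refine pow_le_pow_left₀ (by positivity) ?_ k
      rw [mul_comm]
      exact h3 hoff w hw'
    refine (Finset.sum_le_card_nsmul _ _ _ h5).trans ?_
    rw [nsmul_eq_mul]
    exact mul_le_mul_of_nonneg_right hcard (pow_nonneg hC0 _)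
  obtain ⟨H, hH, hHe⟩ := extendM_off hDen hne hh (by
    filter_upwards [eventually_eventually_nhds.2 hbd] with z hz hz0
    exact subset_closure ⟨hz0, _, hz⟩)
  refine ⟨H, hH, ?_⟩
  filter_upwards [e1, e2', e3, hHe] with z h1 h2 h3 h4 hoff
  have hz : Den z ≠ 0 := h2.2 hoff
  have h5 := h4 hz
  have hfin : (u ⁻¹' {z}).Finite := Set.finite_of_encard_le_coe (hm z h1 hoff)
  have hjψ : jac (Cm n) (chartAt (Cm n) x₀) z ≠ 0 := jac_chart_ne_zero h3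
  rw [← h5]
  simp only [hGd]
  unfold tr
  rw [finsum_mem_eq_finite_toFinset_sum _ hfin, finsum_mem_eq_finite_toFinset_sum _ hfin]
  rw [Finset.mul_sum, Finset.sum_mul, Finset.mul_sum, Finset.sum_mul]
  refine Finset.sum_congr rfl fun w hw => ?_
  have hw' : u w = z := by simpa using hw
  unfold RR
  rw [hw', mul_pow, ← pow_mul, mul_comm N k, div_pow]
  have h6 : jac (Cm n) (chartAt (Cm n) x₀) z ^ (k * N) ≠ 0 := pow_ne_zero _ hjψ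
  field_simp

end Vale.Agent.P281.H389.TG
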